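import Vale.Agent.P339.Defs
import Vale.Agent.P339.Value

open Vale.Agent.P339

theorem Vale.Agent.Results.P339.NotTwoReduction.result :
    (∀ I : NotTwo, (game I).value = (4 + I.opt) / 5 ∧
      Fintype.card (game I).U = 2 * I.m ∧ Fintype.card (game I).V = I.n + I.m ∧
      Fintype.card (game I).E = 5 * I.m) ∧
    (∀ I : NotTwo, I.opt = 1 → (game I).value = 1) ∧
    (∀ (I : NotTwo) (ε : ℝ), I.opt ≤ 5 / 8 + ε → (game I).value ≤ 37 / 40 + ε / 5) := by
  refine ⟨fun I => ⟨value_game I, ?_, ?_, ?_⟩, ?_, ?_⟩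
  · change Fintype.card (Fin I.m × Bool) = 2 * I.m
    rw [Fintype.card_prod, Fintype.card_fin, Fintype.card_bool, mul_comm]
  · change Fintype.card (Fin I.n ⊕ Fin I.m) = I.n + I.m
    rw [Fintype.card_sum, Fintype.card_fin, Fintype.card_fin]
  · change Fintype.card (Fin I.m × Fin 5) = 5 * I.m
    rw [Fintype.card_prod, Fintype.card_fin, Fintype.card_fin, mul_comm]
  · intro I h
    rw [value_game, h]
    norm_num
  · intro I ε h
    rw [value_game]
    linarith
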